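import Vale.Agent.P230.R2.RS

/-!
P230, block G2 (a), (b): normalisation and second moment of the folded discrete Gaussian.
-/

namespace Vale.Agent.P230.R2

open Finset Real MeasureTheory Vale.Agent.P230.H852

theorem del_le {A : ℝ} {P : ℕ} (hA : 0 ≤ A) (hP : Real.exp (4 * A ^ 2) ≤ P) :
    del A P ≤ A * Real.exp (-(4 * A ^ 2)) := by
  have hpos : 0 < Real.exp (4 * A ^ 2) := Real.exp_pos _
  have hP' : (0 : ℝ) < P := hpos.trans_le hP
  rw [del, Real.exp_neg, ← div_eq_mul_inv]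
  exact div_le_div_of_nonneg_left hA hpos hP

theorem P_pos {A : ℝ} {P : ℕ} (hP : Real.exp (4 * A ^ 2) ≤ P) : 0 < P := by
  have hpos : 0 < Real.exp (4 * A ^ 2) := Real.exp_pos _
  exact_mod_cast hpos.trans_le hP

theorem del_nonneg {A : ℝ} {P : ℕ} (hA : 0 ≤ A) : 0 ≤ del A P :=
  div_nonneg hA (Nat.cast_nonneg _)

/-- Riemann sum for the Gaussian -/
theorem N0_close {A : ℝ} {P : ℕ} (hA : 0 ≤ A) (hP : Real.exp (4 * A ^ 2) ≤ P) :
    |del A P * NA A P - ∫ x in (-A)..A, Real.exp (-x ^ 2 / 2)| ≤ 2 * A ^ 2 * del A P := by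
  have h := riemann_Ico (A := A) (L := A) (P_pos hP) hA hA hasDeriv0 (by
    intro x hx
    rw [abs_mul, abs_neg, abs_of_pos (Real.exp_pos _)]
    have h1 : |x| ≤ A := abs_le.2 hx
    have h2 : Real.exp (-x ^ 2 / 2) ≤ 1 := Real.exp_le_one_iff.2 (by nlinarith [sq_nonneg x])
    calc |x| * Real.exp (-x ^ 2 / 2) ≤ A * 1 :=
          mul_le_mul h1 h2 (Real.exp_pos _).le hA
      _ = A := mul_one A)
  have h2 : NA A P = ∑ k ∈ Finset.Ico (-(P : ℤ)) P, Real.exp (-(del A P * (k : ℝ)) ^ 2 / 2) := rfl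
  rw [h2]
  refine h.trans (le_of_eq ?_)
  ring

/-- Riemann sum for the second moment -/
theorem N2_close {A : ℝ} {P : ℕ} (hA : 0 ≤ A) (hP : Real.exp (4 * A ^ 2) ≤ P) :
    |del A P * (∑ k ∈ Finset.Ico (-(P : ℤ)) P, (del A P * k) ^ 2 * gs A P k)
      - ∫ x in (-A)..A, x ^ 2 * Real.exp (-x ^ 2 / 2)| ≤ 2 * (2 * A + A ^ 3) * A * del A P := by
  have h := riemann_Ico (A := A) (L := 2 * A + A ^ 3) (P_pos hP) hA (by positivity) hasDeriv2 (by
    intro x hx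
    rw [abs_mul, abs_of_pos (Real.exp_pos _)]
    have h1 : |x| ≤ A := abs_le.2 hx
    have h2 : Real.exp (-x ^ 2 / 2) ≤ 1 := Real.exp_le_one_iff.2 (by nlinarith [sq_nonneg x])
    have h3 : |2 * x - x ^ 3| ≤ 2 * A + A ^ 3 := by
      calc |2 * x - x ^ 3| ≤ |2 * x| + |x ^ 3| := abs_sub _ _
        _ = 2 * |x| + |x| ^ 3 := by rw [abs_mul, abs_pow, abs_of_pos (by norm_num : (0:ℝ) < 2)]
        _ ≤ 2 * A + A ^ 3 := by
          have := pow_le_pow_left₀ (abs_nonneg x) h1 3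
          linarith
    calc |2 * x - x ^ 3| * Real.exp (-x ^ 2 / 2) ≤ (2 * A + A ^ 3) * 1 :=
          mul_le_mul h3 h2 (Real.exp_pos _).le (by positivity)
      _ = _ := mul_one _)
  exact h

/-- numerics: `exp (-(4 A ^ 2))` is tiny -/
theorem tiny {A : ℝ} (hA : 1 ≤ A) :
    2 * (2 * A + A ^ 3) * A * (A * Real.exp (-(4 * A ^ 2))) ≤ A ^ 2 * Real.exp (-A ^ 2 / 2) := by
  have h1 : Real.exp (-(4 * A ^ 2)) = Real.exp (-A ^ 2 / 2) * Real.exp (-(3.5 * A ^ 2)) := by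
    rw [← Real.exp_add]; congr 1; ring
  have h2 : 1 + 3.5 * A ^ 2 + (3.5 * A ^ 2) ^ 2 / 2 ≤ Real.exp (3.5 * A ^ 2) :=
    Real.quadratic_le_exp_of_nonneg (by positivity)
  have h3 : Real.exp (3.5 * A ^ 2) * Real.exp (-(3.5 * A ^ 2)) = 1 := by
    rw [← Real.exp_add]; simp
  have h4 := Real.exp_pos (-(3.5 * A ^ 2))
  have h5 := Real.exp_pos (-A ^ 2 / 2)
  have h6 : 2 * (2 * A + A ^ 3) ≤ Real.exp (3.5 * A ^ 2) := by
    nlinarith [mul_nonneg (sub_nonneg.2 hA) (sq_nonneg A), sq_nonneg (A ^ 2 - 1), sq_nonneg (A - 1),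
      mul_nonneg (sub_nonneg.2 hA) (by positivity : (0:ℝ) ≤ A ^ 3)]
  have h7 : 2 * (2 * A + A ^ 3) * Real.exp (-(3.5 * A ^ 2)) ≤ 1 := by
    calc 2 * (2 * A + A ^ 3) * Real.exp (-(3.5 * A ^ 2))
        ≤ Real.exp (3.5 * A ^ 2) * Real.exp (-(3.5 * A ^ 2)) :=
          mul_le_mul_of_nonneg_right h6 h4.le
      _ = 1 := h3
  rw [h1]
  calc 2 * (2 * A + A ^ 3) * A * (A * (Real.exp (-A ^ 2 / 2) * Real.exp (-(3.5 * A ^ 2))))
      = (A ^ 2 * Real.exp (-A ^ 2 / 2)) * (2 * (2 * A + A ^ 3) * Real.exp (-(3.5 * A ^ 2))) := by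
        ring
    _ ≤ (A ^ 2 * Real.exp (-A ^ 2 / 2)) * 1 := by
        apply mul_le_mul_of_nonneg_left h7 (by positivity)
    _ = _ := mul_one _

/-- the same with `exp (-A ^ 2)` -/
theorem tiny' {A : ℝ} (hA : 1 ≤ A) :
    2 * A ^ 2 * (A * Real.exp (-(4 * A ^ 2))) ≤ Real.exp (-A ^ 2) := by
  have h1 : Real.exp (-(4 * A ^ 2)) = Real.exp (-A ^ 2) * Real.exp (-(3 * A ^ 2)) := by
    rw [← Real.exp_add]; congr 1; ring
  have h2 : 1 + 3 * A ^ 2 + (3 * A ^ 2) ^ 2 / 2 ≤ Real.exp (3 * A ^ 2) :=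
    Real.quadratic_le_exp_of_nonneg (by positivity)
  have h3 : Real.exp (3 * A ^ 2) * Real.exp (-(3 * A ^ 2)) = 1 := by
    rw [← Real.exp_add]; simp
  have h4 := Real.exp_pos (-(3 * A ^ 2))
  have h5 := Real.exp_pos (-A ^ 2)
  have h6 : 2 * A ^ 3 ≤ Real.exp (3 * A ^ 2) := by
    nlinarith [mul_nonneg (sub_nonneg.2 hA) (by positivity : (0:ℝ) ≤ A ^ 3)]
  rw [h1]
  calc 2 * A ^ 2 * (A * (Real.exp (-A ^ 2) * Real.exp (-(3 * A ^ 2))))
      = Real.exp (-A ^ 2) * (2 * A ^ 3 * Real.exp (-(3 * A ^ 2))) := by ring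
    _ ≤ Real.exp (-A ^ 2) * (Real.exp (3 * A ^ 2) * Real.exp (-(3 * A ^ 2))) := by
        apply mul_le_mul_of_nonneg_left _ h5.le
        exact mul_le_mul_of_nonneg_right h6 h4.le
    _ = Real.exp (-A ^ 2) := by rw [h3, mul_one]

theorem I0_le {A : ℝ} (hA : 0 < A) :
    ∫ x in (-A)..A, Real.exp (-x ^ 2 / 2) ≤ Real.sqrt (2 * π) := by
  rw [I0_eq hA]
  have : 0 ≤ ∫ x in Set.Ioi A, Real.exp (-x ^ 2 / 2) :=
    setIntegral_nonneg measurableSet_Ioi fun x _ => (Real.exp_pos _).le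
  linarith

theorem I0_ge {A : ℝ} (hA : 0 < A) :
    Real.sqrt (2 * π) - 2 * (Real.exp (-A ^ 2 / 2) / A) ≤ ∫ x in (-A)..A, Real.exp (-x ^ 2 / 2) := by
  rw [I0_eq hA]
  linarith [tail_le hA]

theorem norm_hi {A : ℝ} {P : ℕ} (hA : 1 ≤ A) (hP : Real.exp (4 * A ^ 2) ≤ P) :
    del A P * NA A P / Real.sqrt (2 * π) ≤ 1 + Real.exp (-A ^ 2) := by
  have hA0 : 0 < A := by linarith
  have h1 := (abs_le.1 (N0_close hA0.le hP)).2
  have h2 := I0_le hA0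
  have h3 : 2 * A ^ 2 * del A P ≤ Real.exp (-A ^ 2) :=
    (mul_le_mul_of_nonneg_left (del_le hA0.le hP) (by positivity)).trans (tiny' hA)
  have hs := sqrt_two_pi_gt
  rw [div_le_iff₀ (by linarith)]
  nlinarith [Real.exp_pos (-A ^ 2)]

theorem E2_le {A : ℝ} {P : ℕ} (hA : 1 ≤ A) (hP : Real.exp (4 * A ^ 2) ≤ P) :
    2 * (2 * A + A ^ 3) * A * del A P ≤ A ^ 2 * Real.exp (-A ^ 2 / 2) :=
  (mul_le_mul_of_nonneg_left (del_le (by linarith) hP) (by positivity)).trans (tiny hA)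

theorem exp_half_ge {A : ℝ} : Real.exp (-A ^ 2) ≤ Real.exp (-A ^ 2 / 2) :=
  Real.exp_le_exp.2 (by nlinarith [sq_nonneg A])

theorem N0_ge {A : ℝ} {P : ℕ} (hA : 1 ≤ A) (hP : Real.exp (4 * A ^ 2) ≤ P) :
    Real.sqrt (2 * π) - 3 * Real.exp (-A ^ 2 / 2) ≤ del A P * NA A P := by
  have hA0 : 0 < A := by linarith
  have h1 := (abs_le.1 (N0_close hA0.le hP)).1
  have h2 := I0_ge hA0
  have h3 : 2 * A ^ 2 * del A P ≤ Real.exp (-A ^ 2) :=
    (mul_le_mul_of_nonneg_left (del_le hA0.le hP) (by positivity)).trans (tiny' hA)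
  have h4 : Real.exp (-A ^ 2 / 2) / A ≤ Real.exp (-A ^ 2 / 2) :=
    div_le_self (Real.exp_pos _).le hA
  linarith [exp_half_ge (A := A)]

theorem norm_lo {A : ℝ} {P : ℕ} (hA : 1 ≤ A) (hP : Real.exp (4 * A ^ 2) ≤ P) :
    1 - 2 * Real.exp (-A ^ 2 / 2) ≤ del A P * NA A P / Real.sqrt (2 * π) := by
  have h1 := N0_ge hA hP
  have hs := sqrt_two_pi_gt
  rw [le_div_iff₀ (by linarith)]
  nlinarith [Real.exp_pos (-A ^ 2 / 2)]

theorem exp_half_le {A : ℝ} (hA : 2 ≤ A) : Real.exp (-A ^ 2 / 2) ≤ 0.14 := by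
  have h1 : Real.exp (-A ^ 2 / 2) ≤ Real.exp (-2) := Real.exp_le_exp.2 (by nlinarith)
  refine h1.trans ?_
  rw [Real.exp_neg]
  have h2 : 7.3 ≤ Real.exp 2 := by
    have h3 : Real.exp 2 = Real.exp 1 ^ 2 := by
      rw [← Real.exp_nat_mul]; norm_num
    have h4 := Real.exp_one_gt_d9
    rw [h3]
    nlinarith
  rw [inv_le_comm₀ (by linarith) (by norm_num)]
  refine le_trans ?_ h2
  norm_num

theorem mom2 {A : ℝ} {P : ℕ} (hA : 2 ≤ A) (hP : Real.exp (4 * A ^ 2) ≤ P) :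
    |(∑ k ∈ Finset.Ico (-(P : ℤ)) P, (del A P * k) ^ 2 * gs A P k) / NA A P - 1|
      ≤ 2 * A ^ 2 * Real.exp (-A ^ 2 / 2) := by
  have hA1 : 1 ≤ A := by linarith
  have hA0 : 0 < A := by linarith
  have : NeZero P := ⟨(P_pos hP).ne'⟩
  have hδ : 0 < del A P := div_pos hA0 (by exact_mod_cast P_pos hP)
  have hN := NA_pos (A := A) (P := P)
  set N2 := ∑ k ∈ Finset.Ico (-(P : ℤ)) P, (del A P * k) ^ 2 * gs A P k with hN2
  set e := Real.exp (-A ^ 2 / 2) with he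
  have he0 : 0 < e := Real.exp_pos _
  have h1 := abs_le.1 (N0_close hA0.le hP)
  have h2 := abs_le.1 (N2_close hA0.le hP)
  rw [← hN2, I2_eq A, ← he] at h2
  have h3 : 2 * A ^ 2 * del A P ≤ Real.exp (-A ^ 2) :=
    (mul_le_mul_of_nonneg_left (del_le hA0.le hP) (by positivity)).trans (tiny' hA1)
  have h3' := exp_half_ge (A := A)
  rw [← he] at h3'
  have h4 := E2_le hA1 hP
  rw [← he] at h4
  have h5 := N0_ge hA1 hP
  rw [← he] at h5
  have h6 : e ≤ 0.14 := exp_half_le hA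
  have hs := sqrt_two_pi_gt
  have hfrac : N2 / NA A P - 1 = (del A P * N2 - del A P * NA A P) / (del A P * NA A P) := by
    field_simp
  have hD : 2 ≤ del A P * NA A P := by linarith
  have hE0 : |del A P * NA A P - ∫ x in (-A)..A, Real.exp (-x ^ 2 / 2)| ≤ e :=
    (N0_close hA0.le hP).trans (h3.trans h3')
  have hE0' := abs_le.1 hE0
  have hnum : |del A P * N2 - del A P * NA A P| ≤ (2 * A + A ^ 2 + 1) * e := by
    rw [abs_le]
    constructor <;> nlinarith [h2.1, h2.2, hE0'.1, hE0'.2]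
  rw [hfrac, abs_div, abs_of_pos (by linarith : 0 < del A P * NA A P), div_le_iff₀ (by linarith)]
  refine hnum.trans ?_
  have h7 : (2 * A + A ^ 2 + 1) * e ≤ (2 * A ^ 2 * e) * 2 := by nlinarith
  refine h7.trans ?_
  apply mul_le_mul_of_nonneg_left hD (by positivity)

end Vale.Agent.P230.R2
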