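import Vale.Agent.P230.R2.Mom4
import Vale.Agent.P230.H852.G2b
import Vale.Agent.P230.BS.Final
import Vale.Agent.P230.G.Rec
import Vale.Agent.P230.H691.Close4

/-!
# P230: `Θ_L(n) ≤ C n log n`
-/

namespace Vale.Agent.P230.R2

open Vale.Agent.P230.H852

/-- block G2 -/
theorem s_G2F : S_G2F :=
  s_G2F_of4
    ⟨1, fun _ hA _ _ hP => norm_lo hA hP⟩
    ⟨1, fun _ hA _ _ hP => norm_hi hA hP⟩
    ⟨2, fun _ hA _ _ hP => mom2 hA hP⟩
    ⟨2, fun _ hA _ _ hP => mom4 hA hP⟩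
    ⟨2, fun _ hA _ _ hP => log2 hA hP⟩

/-- The lattice covering density of every convex body is at most `C n log n`. -/
theorem ThetaL_le_nlogn : ∃ C : ℝ, 0 < C ∧ ∀ n : ℕ, 2 ≤ n →
    Vale.Agent.P230.ThetaL n ≤ ENNReal.ofReal (C * n * Real.log n) :=
  Vale.Agent.P230.H691.thetaL_log_of_blocks Vale.Agent.P230.BS.Hf
    (Vale.Agent.P230.BS.bsLast s_G2F) (Vale.Agent.P230.BS.hBounds s_G2F)
    (Vale.Agent.P230.G.g7 _ (Vale.Agent.P230.BS.bsInt s_G2F) (Vale.Agent.P230.BS.hBounds s_G2F))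

end Vale.Agent.P230.R2
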