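import Vale.Agent.P230.R2.Norm

/-!
P230, block G2 (c), (d): fourth moment and second moment of the log-weight.
-/

namespace Vale.Agent.P230.R2

open Finset Real MeasureTheory Vale.Agent.P230.H852

theorem hasDeriv4 (x : ℝ) :
    HasDerivAt (fun x : ℝ => x ^ 4 * Real.exp (-x ^ 2 / 2))
      ((4 * x ^ 3 - x ^ 5) * Real.exp (-x ^ 2 / 2)) x := by
  have h := ((hasDerivAt_id x).pow 4).mul (hasDeriv0 x)
  simp only [id] at h
  refine h.congr_deriv ?_
  simp
  ring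

theorem N4_close {A : ℝ} {P : ℕ} (hA : 0 ≤ A) (hP : Real.exp (4 * A ^ 2) ≤ P) :
    |del A P * (∑ k ∈ Finset.Ico (-(P : ℤ)) P, (del A P * k) ^ 4 * gs A P k)
      - ∫ x in (-A)..A, x ^ 4 * Real.exp (-x ^ 2 / 2)| ≤ 2 * (4 * A ^ 3 + A ^ 5) * A * del A P := by
  have h := riemann_Ico (A := A) (L := 4 * A ^ 3 + A ^ 5) (P_pos hP) hA (by positivity) hasDeriv4 (by
    intro x hx
    rw [abs_mul, abs_of_pos (Real.exp_pos _)]
    have h1 : |x| ≤ A := abs_le.2 hx
    have h2 : Real.exp (-x ^ 2 / 2) ≤ 1 := Real.exp_le_one_iff.2 (by nlinarith [sq_nonneg x])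
    have h3 : |4 * x ^ 3 - x ^ 5| ≤ 4 * A ^ 3 + A ^ 5 := by
      calc |4 * x ^ 3 - x ^ 5| ≤ |4 * x ^ 3| + |x ^ 5| := abs_sub _ _
        _ = 4 * |x| ^ 3 + |x| ^ 5 := by
          rw [abs_mul, abs_pow, abs_pow, abs_of_pos (by norm_num : (0:ℝ) < 4)]
        _ ≤ 4 * A ^ 3 + A ^ 5 := by
          have := pow_le_pow_left₀ (abs_nonneg x) h1 3
          have := pow_le_pow_left₀ (abs_nonneg x) h1 5
          linarith
    calc |4 * x ^ 3 - x ^ 5| * Real.exp (-x ^ 2 / 2) ≤ (4 * A ^ 3 + A ^ 5) * 1 :=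
          mul_le_mul h3 h2 (Real.exp_pos _).le (by positivity)
      _ = _ := mul_one _)
  exact h

theorem I4_le {A : ℝ} (hA : 0 < A) :
    ∫ x in (-A)..A, x ^ 4 * Real.exp (-x ^ 2 / 2)
      ≤ 3 * ∫ x in (-A)..A, Real.exp (-x ^ 2 / 2) := by
  have hd : ∀ x ∈ Set.uIcc (-A) A, HasDerivAt (fun x : ℝ => -(x ^ 3 * Real.exp (-x ^ 2 / 2)))
      (x ^ 4 * Real.exp (-x ^ 2 / 2) - 3 * (x ^ 2 * Real.exp (-x ^ 2 / 2))) x := by
    intro x _
    have := (((hasDerivAt_id x).pow 3).mul (hasDeriv0 x)).neg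
    simp only [id] at this
    refine this.congr_deriv ?_
    simp
    ring
  have hc : Continuous fun x : ℝ => x ^ 4 * Real.exp (-x ^ 2 / 2) := by fun_prop
  have hc2 : Continuous fun x : ℝ => x ^ 2 * Real.exp (-x ^ 2 / 2) := by fun_prop
  have h := intervalIntegral.integral_eq_sub_of_hasDerivAt hd
    ((hc.sub (hc2.const_mul 3)).intervalIntegrable _ _)
  rw [intervalIntegral.integral_sub (hc.intervalIntegrable _ _)
    ((hc2.const_mul 3).intervalIntegrable _ _), intervalIntegral.integral_const_mul, I2_eq A] at h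
  have h2 : (-A) ^ 2 = A ^ 2 := by ring
  rw [h2] at h
  have h3 := Real.exp_pos (-A ^ 2 / 2)
  have h4 : 0 ≤ A ^ 3 * Real.exp (-A ^ 2 / 2) := by positivity
  have h5 : 0 ≤ A * Real.exp (-A ^ 2 / 2) := by positivity
  have h6 : (-A) ^ 3 = -A ^ 3 := by ring
  rw [h6] at h
  nlinarith

theorem tiny4 {A : ℝ} (hA : 1 ≤ A) :
    2 * (4 * A ^ 3 + A ^ 5) * A * (A * Real.exp (-(4 * A ^ 2))) ≤ 1 := by
  have h2 : 4 * A ^ 2 + 1 ≤ Real.exp (4 * A ^ 2) := Real.add_one_le_exp _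
  have h2' : (1 + 4 / 3 * A ^ 2 + (4 / 3 * A ^ 2) ^ 2 / 2) ^ 3 ≤ Real.exp (4 * A ^ 2) := by
    have h3 : Real.exp (4 * A ^ 2) = Real.exp (4 / 3 * A ^ 2) ^ 3 := by
      rw [← Real.exp_nat_mul]; congr 1; push_cast; ring
    rw [h3]
    exact pow_le_pow_left₀ (by positivity) (Real.quadratic_le_exp_of_nonneg (by positivity)) 3
  have h3 : Real.exp (4 * A ^ 2) * Real.exp (-(4 * A ^ 2)) = 1 := by
    rw [← Real.exp_add]; simp
  have h4 := Real.exp_pos (-(4 * A ^ 2))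
  have h6 : 2 * (4 * A ^ 3 + A ^ 5) * A * A ≤ Real.exp (4 * A ^ 2) := by
    refine le_trans ?_ h2'
    have hx : 1 ≤ A ^ 2 := by nlinarith
    have h7 : A ^ 5 ≤ A ^ 6 := pow_le_pow_right₀ hA (by norm_num)
    have h8 : A ^ 7 ≤ A ^ 8 := pow_le_pow_right₀ hA (by norm_num)
    have h9 : 0 ≤ A ^ 2 := by positivity
    have h10 : 0 ≤ A ^ 4 := by positivity
    have h11 : 0 ≤ A ^ 6 := by positivity
    have h12 : 0 ≤ A ^ 8 := by positivity
    have h13 : 0 ≤ A ^ 10 := by positivity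
    have h14 : 0 ≤ A ^ 12 := by positivity
    nlinarith
  calc 2 * (4 * A ^ 3 + A ^ 5) * A * (A * Real.exp (-(4 * A ^ 2)))
      = (2 * (4 * A ^ 3 + A ^ 5) * A * A) * Real.exp (-(4 * A ^ 2)) := by ring
    _ ≤ Real.exp (4 * A ^ 2) * Real.exp (-(4 * A ^ 2)) := mul_le_mul_of_nonneg_right h6 h4.le
    _ = 1 := h3

theorem mom4 {A : ℝ} {P : ℕ} (hA : 2 ≤ A) (hP : Real.exp (4 * A ^ 2) ≤ P) :
    (∑ k ∈ Finset.Ico (-(P : ℤ)) P, (del A P * k) ^ 4 * gs A P k) / NA A P ≤ 4 := by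
  have hA1 : 1 ≤ A := by linarith
  have hA0 : 0 < A := by linarith
  have : NeZero P := ⟨(P_pos hP).ne'⟩
  have hδ : 0 < del A P := div_pos hA0 (by exact_mod_cast P_pos hP)
  have hN := NA_pos (A := A) (P := P)
  rw [div_le_iff₀ hN]
  have h1 := abs_le.1 (N0_close hA0.le hP)
  have h2 := abs_le.1 (N4_close hA0.le hP)
  have h3 := I4_le hA0
  have h4 : 2 * (4 * A ^ 3 + A ^ 5) * A * del A P ≤ 1 :=
    (mul_le_mul_of_nonneg_left (del_le hA0.le hP) (by positivity)).trans (tiny4 hA1)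
  have h5 : 2 * A ^ 2 * del A P ≤ Real.exp (-A ^ 2) :=
    (mul_le_mul_of_nonneg_left (del_le hA0.le hP) (by positivity)).trans (tiny' hA1)
  have h6 := N0_ge hA1 hP
  have h7 := exp_half_le hA
  have h8 := exp_half_ge (A := A)
  have hs := sqrt_two_pi_gt
  have : del A P * (∑ k ∈ Finset.Ico (-(P : ℤ)) P, (del A P * k) ^ 4 * gs A P k)
      ≤ del A P * (4 * NA A P) := by
    nlinarith
  exact le_of_mul_le_mul_left this hδ

/-- (d) -/
theorem log2 {A : ℝ} {P : ℕ} [NeZero P] (hA : 2 ≤ A) (hP : Real.exp (4 * A ^ 2) ≤ P) :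
    ∑ u : ZMod P, G A u * (Real.log (G A u) + Real.log (NA A P)) ^ 2 ≤ 4 := by
  have hN := NA_pos (A := A) (P := P)
  have h1 : ∀ u : ZMod P, G A u * (Real.log (G A u) + Real.log (NA A P)) ^ 2
      ≤ (1 / 4) * (q0 A u * (del A P * k0 u) ^ 4 + q1 A u * (del A P * k1 u) ^ 4) + G A u := by
    intro u
    have hg : Real.log (G A u) + Real.log (NA A P)
        = Real.log (gs A P (k0 u) + gs A P (k1 u)) := by
      rw [← Real.log_mul (G_pos u).ne' hN.ne']
      congr 1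
      rw [G, q0, q1]
      field_simp
    rw [hg]
    set a := gs A P (k0 u) with ha
    set b := gs A P (k1 u) with hb
    have ha0 : 0 < a := gs_pos _
    have hb0 : 0 < b := gs_pos _
    have ha1 : a ≤ 1 := Real.exp_le_one_iff.2 (by nlinarith [sq_nonneg (del A P * (k0 u : ℝ))])
    have hb1 : b ≤ 1 := Real.exp_le_one_iff.2 (by nlinarith [sq_nonneg (del A P * (k1 u : ℝ))])
    have hla : Real.log a = -(del A P * (k0 u : ℝ)) ^ 2 / 2 := by rw [ha, gs, Real.log_exp]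
    have hlb : Real.log b = -(del A P * (k1 u : ℝ)) ^ 2 / 2 := by rw [hb, gs, Real.log_exp]
    have hup : Real.log (a + b) ≤ 1 := by
      have h2 : Real.log (a + b) ≤ Real.log 2 := Real.log_le_log (by positivity) (by linarith)
      have := Real.log_two_lt_d9
      linarith
    have hloa : -(del A P * (k0 u : ℝ)) ^ 2 / 2 ≤ Real.log (a + b) := by
      rw [← hla]; exact Real.log_le_log ha0 (by linarith)
    have hlob : -(del A P * (k1 u : ℝ)) ^ 2 / 2 ≤ Real.log (a + b) := by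
      rw [← hlb]; exact Real.log_le_log hb0 (by linarith)
    have key : ∀ x : ℝ, -x ^ 2 / 2 ≤ Real.log (a + b) →
        (Real.log (a + b)) ^ 2 ≤ (1 / 4) * x ^ 4 + 1 := by
      intro x hx
      rcases le_total 0 (Real.log (a + b)) with h0 | h0
      · nlinarith [sq_nonneg (x ^ 2)]
      · nlinarith [sq_nonneg (x ^ 2), sq_nonneg x]
    have k0' := key _ hloa
    have k1' := key _ hlob
    have hq0 := q0_pos (A := A) u
    have hq1 := q1_pos (A := A) u
    rw [G]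
    nlinarith [mul_le_mul_of_nonneg_left k0' hq0.le, mul_le_mul_of_nonneg_left k1' hq1.le]
  refine (Finset.sum_le_sum fun u _ => h1 u).trans ?_
  rw [Finset.sum_add_distrib, ← Finset.mul_sum, sum_G]
  have h2 := sum_q (A := A) (P := P) (fun k => (del A P * (k : ℝ)) ^ 4)
  rw [h2]
  have h3 := mom4 hA hP
  linarith

end Vale.Agent.P230.R2
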