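import Vale.Agent.P230.H852.Lift

/-!
P230, block G2 (a), (b): Riemann sums, normalisation and second moment.
-/

namespace Vale.Agent.P230.R2

open Finset Real MeasureTheory Vale.Agent.P230.H852

/-- one cell -/
theorem cell {f : ℝ → ℝ} {L δ x : ℝ} (hδ : 0 ≤ δ) (hL : 0 ≤ L) (hc : Continuous f)
    (hf : ∀ y ∈ Set.Icc x (x + δ), |f y - f x| ≤ L * |y - x|) :
    |δ * f x - ∫ y in x..(x + δ), f y| ≤ L * δ ^ 2 := by
  have h1 : δ * f x = ∫ _ in x..(x + δ), f x := by
    rw [intervalIntegral.integral_const]; simp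
  rw [h1, ← intervalIntegral.integral_sub (by simp) (hc.intervalIntegrable _ _)]
  have h2 : ∀ y ∈ Set.uIoc x (x + δ), ‖f x - f y‖ ≤ L * δ := by
    intro y hy
    rw [Set.uIoc_of_le (by linarith)] at hy
    have := hf y ⟨hy.1.le, hy.2⟩
    rw [Real.norm_eq_abs, abs_sub_comm]
    refine this.trans ?_
    apply mul_le_mul_of_nonneg_left _ hL
    rw [abs_of_nonneg (by linarith [hy.1])]
    linarith [hy.2]
  have h3 := intervalIntegral.norm_integral_le_of_norm_le_const h2
  rw [Real.norm_eq_abs] at h3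
  refine h3.trans ?_
  rw [add_sub_cancel_left, abs_of_nonneg hδ]
  nlinarith

theorem riemann {f : ℝ → ℝ} {L δ a : ℝ} (hδ : 0 ≤ δ) (hL : 0 ≤ L) (hc : Continuous f) (n : ℕ)
    (hf : ∀ x ∈ Set.Icc a (a + δ * n), ∀ y ∈ Set.Icc a (a + δ * n), |f y - f x| ≤ L * |y - x|) :
    |δ * ∑ k ∈ range n, f (a + δ * k) - ∫ x in a..(a + δ * n), f x| ≤ L * δ ^ 2 * n := by
  induction n with
  | zero => simp
  | succ n ih =>
    have hn : a + δ * (n : ℝ) ≤ a + δ * ((n + 1 : ℕ) : ℝ) := by
      push_cast; nlinarith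
    have ih' := ih (fun x hx y hy => hf x ⟨hx.1, hx.2.trans hn⟩ y ⟨hy.1, hy.2.trans hn⟩)
    have hx0 : a ≤ a + δ * (n : ℝ) := by
      have : (0 : ℝ) ≤ n := Nat.cast_nonneg n
      nlinarith
    have he : a + δ * ((n + 1 : ℕ) : ℝ) = (a + δ * n) + δ := by push_cast; ring
    have hcell : |δ * f (a + δ * n) - ∫ y in (a + δ * n)..((a + δ * n) + δ), f y| ≤ L * δ ^ 2 := by
      apply cell hδ hL hc
      intro y hy
      apply hf
      · exact ⟨hx0, hn⟩
      · rw [he]
        exact ⟨hx0.trans hy.1, hy.2⟩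
    rw [Finset.sum_range_succ, mul_add, he,
      ← intervalIntegral.integral_add_adjacent_intervals (hc.intervalIntegrable _ _)
        (hc.intervalIntegrable (a + δ * n) _)]
    have : δ * ∑ k ∈ range n, f (a + δ * k) + δ * f (a + δ * n)
        - ((∫ x in a..(a + δ * n), f x) + ∫ x in (a + δ * n)..((a + δ * n) + δ), f x)
        = (δ * ∑ k ∈ range n, f (a + δ * k) - ∫ x in a..(a + δ * n), f x)
          + (δ * f (a + δ * n) - ∫ x in (a + δ * n)..((a + δ * n) + δ), f x) := by ring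
    rw [this]
    refine (abs_add_le _ _).trans ?_
    push_cast
    nlinarith [ih', hcell]

theorem sum_Ico_shift (P : ℕ) (g : ℤ → ℝ) :
    ∑ k ∈ Finset.Ico (-(P : ℤ)) P, g k = ∑ i ∈ range (2 * P), g ((i : ℤ) - P) := by
  refine (Finset.sum_nbij' (fun i : ℕ => (i : ℤ) - P) (fun k : ℤ => (k + P).toNat)
      ?_ ?_ ?_ ?_ ?_).symm
  · intro i hi; simp only [Finset.mem_range] at hi; simp only [Finset.mem_Ico]; omega
  · intro k hk; simp only [Finset.mem_Ico] at hk; simp only [Finset.mem_range]; omega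
  · intro i _; simp
  · intro k hk
    simp only [Finset.mem_Ico] at hk
    omega
  · intro i _; rfl

/-- `|δ ∑_{-P ≤ k < P} f (δ k) - ∫_{-A}^{A} f| ≤ 2 L A δ` if `|f'| ≤ L` on `[-A, A]` -/
theorem riemann_Ico {A L : ℝ} {P : ℕ} (hP : 0 < P) (hA : 0 ≤ A) (hL : 0 ≤ L) {f f' : ℝ → ℝ}
    (hd : ∀ x, HasDerivAt f (f' x) x) (hb : ∀ x ∈ Set.Icc (-A) A, |f' x| ≤ L) :
    |del A P * ∑ k ∈ Finset.Ico (-(P : ℤ)) P, f (del A P * k) - ∫ x in (-A)..A, f x|
      ≤ 2 * L * A * del A P := by
  have hP' : (0 : ℝ) < P := by exact_mod_cast hP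
  have hδ : 0 ≤ del A P := div_nonneg hA hP'.le
  have hPA : del A P * P = A := by rw [del]; field_simp
  have hc : Continuous f := continuous_iff_continuousAt.2 fun x => (hd x).continuousAt
  have he : -A + del A P * ((2 * P : ℕ) : ℝ) = A := by
    push_cast; linarith [hPA]
  have h := riemann (f := f) (L := L) (a := -A) hδ hL hc (2 * P) (by
    rw [he]
    intro x hx y hy
    have := Convex.norm_image_sub_le_of_norm_hasDerivWithin_le (f := f) (f' := f')
      (s := Set.Icc (-A) A) (C := L) (fun z _ => (hd z).hasDerivWithinAt)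
      (fun z hz => by rw [Real.norm_eq_abs]; exact hb z hz) (convex_Icc _ _) hx hy
    simpa [Real.norm_eq_abs] using this)
  rw [he] at h
  rw [sum_Ico_shift]
  have h2 : ∑ i ∈ range (2 * P), f (del A P * (((i : ℤ) - P : ℤ) : ℝ))
      = ∑ k ∈ range (2 * P), f (-A + del A P * k) := by
    refine Finset.sum_congr rfl fun i _ => ?_
    congr 1
    push_cast
    linarith [hPA]
  rw [h2]
  refine h.trans (le_of_eq ?_)
  push_cast
  have : L * del A P ^ 2 * (2 * (P : ℝ)) = 2 * L * (del A P * P) * del A P := by ring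
  rw [this, hPA]

/-! ### Gaussian integrals -/

theorem hasDeriv0 (x : ℝ) :
    HasDerivAt (fun x : ℝ => Real.exp (-x ^ 2 / 2)) (-x * Real.exp (-x ^ 2 / 2)) x := by
  have h := ((((hasDerivAt_id x).pow 2).neg).div_const 2).exp
  simp only [id] at h
  refine h.congr_deriv ?_
  simp
  ring

theorem hasDeriv2 (x : ℝ) :
    HasDerivAt (fun x : ℝ => x ^ 2 * Real.exp (-x ^ 2 / 2))
      ((2 * x - x ^ 3) * Real.exp (-x ^ 2 / 2)) x := by
  have h := ((hasDerivAt_id x).pow 2).mul (hasDeriv0 x)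
  simp only [id] at h
  refine h.congr_deriv ?_
  simp
  ring

theorem int_gauss : ∫ x : ℝ, Real.exp (-x ^ 2 / 2) = Real.sqrt (2 * π) := by
  have h := integral_gaussian (1 / 2)
  have h2 : π / (1 / 2) = 2 * π := by ring
  rw [h2] at h
  rw [← h]
  congr 1
  ext x
  congr 1
  ring

theorem integrable_gauss : Integrable (fun x : ℝ => Real.exp (-x ^ 2 / 2)) := by
  have h := integrable_exp_neg_mul_sq (b := 1 / 2) (by norm_num)
  refine h.congr (Filter.Eventually.of_forall fun x => ?_)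
  simp only
  congr 1
  ring

theorem integrable_gauss1 : Integrable (fun x : ℝ => x * Real.exp (-x ^ 2 / 2)) := by
  have h := integrable_mul_exp_neg_mul_sq (b := 1 / 2) (by norm_num)
  refine h.congr (Filter.Eventually.of_forall fun x => ?_)
  simp only
  congr 2
  ring

theorem tail_le {A : ℝ} (hA : 0 < A) :
    ∫ x in Set.Ioi A, Real.exp (-x ^ 2 / 2) ≤ Real.exp (-A ^ 2 / 2) / A := by
  have h1 : ∫ x in Set.Ioi A, x * Real.exp (-x ^ 2 / 2) = Real.exp (-A ^ 2 / 2) := by
    have hd : ∀ x ∈ Set.Ici A, HasDerivAt (fun x : ℝ => -Real.exp (-x ^ 2 / 2))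
        (x * Real.exp (-x ^ 2 / 2)) x := by
      intro x _
      have := (hasDeriv0 x).neg
      refine this.congr_deriv ?_
      ring
    have ht : Filter.Tendsto (fun x : ℝ => -Real.exp (-x ^ 2 / 2)) Filter.atTop (nhds 0) := by
      rw [← neg_zero]
      apply Filter.Tendsto.neg
      apply Real.tendsto_exp_atBot.comp
      have : (fun x : ℝ => -x ^ 2 / 2) = fun x : ℝ => -(x ^ 2 / 2) := by ext x; ring
      rw [this]
      apply Filter.tendsto_neg_atTop_atBot.comp
      exact (Filter.tendsto_pow_atTop (by norm_num)).atTop_div_const (by norm_num)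
    have := integral_Ioi_of_hasDerivAt_of_tendsto' hd integrable_gauss1.integrableOn ht
    rw [this]; ring
  calc ∫ x in Set.Ioi A, Real.exp (-x ^ 2 / 2)
      ≤ ∫ x in Set.Ioi A, (x * Real.exp (-x ^ 2 / 2)) * (1 / A) := by
        apply setIntegral_mono_on integrable_gauss.integrableOn
          (integrable_gauss1.mul_const _).integrableOn measurableSet_Ioi
        intro x hx
        have hx' : A < x := hx
        have he := Real.exp_pos (-x ^ 2 / 2)
        rw [mul_one_div, le_div_iff₀ hA]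
        nlinarith
    _ = Real.exp (-A ^ 2 / 2) / A := by
        rw [integral_mul_const, h1]; ring

theorem I0_eq {A : ℝ} (hA : 0 < A) :
    ∫ x in (-A)..A, Real.exp (-x ^ 2 / 2)
      = Real.sqrt (2 * π) - 2 * ∫ x in Set.Ioi A, Real.exp (-x ^ 2 / 2) := by
  have h1 : ∫ x in Set.Iic (-A), Real.exp (-x ^ 2 / 2) = ∫ x in Set.Ioi A, Real.exp (-x ^ 2 / 2) := by
    have := integral_comp_neg_Iic (-A) (fun x : ℝ => Real.exp (-x ^ 2 / 2))
    simp only [neg_neg, neg_sq] at this
    exact this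
  have h2 : (∫ x in Set.Iic A, Real.exp (-x ^ 2 / 2)) - ∫ x in Set.Iic (-A), Real.exp (-x ^ 2 / 2)
      = ∫ x in (-A)..A, Real.exp (-x ^ 2 / 2) :=
    intervalIntegral.integral_Iic_sub_Iic integrable_gauss.integrableOn
      integrable_gauss.integrableOn
  have h3 : (∫ x in Set.Iic A, Real.exp (-x ^ 2 / 2)) + ∫ x in Set.Ioi A, Real.exp (-x ^ 2 / 2)
      = Real.sqrt (2 * π) := by
    rw [← int_gauss]
    have := integral_add_compl (s := Set.Iic A) measurableSet_Iic integrable_gauss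
    rw [Set.compl_Iic] at this
    exact this
  rw [← h2, h1]
  linarith

theorem I2_eq (A : ℝ) :
    ∫ x in (-A)..A, x ^ 2 * Real.exp (-x ^ 2 / 2)
      = (∫ x in (-A)..A, Real.exp (-x ^ 2 / 2)) - 2 * A * Real.exp (-A ^ 2 / 2) := by
  have hd : ∀ x ∈ Set.uIcc (-A) A, HasDerivAt (fun x : ℝ => -(x * Real.exp (-x ^ 2 / 2)))
      (x ^ 2 * Real.exp (-x ^ 2 / 2) - Real.exp (-x ^ 2 / 2)) x := by
    intro x _
    have := ((hasDerivAt_id x).mul (hasDeriv0 x)).neg
    simp only [id] at this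
    refine this.congr_deriv ?_
    simp
    ring
  have hc : Continuous fun x : ℝ => x ^ 2 * Real.exp (-x ^ 2 / 2) := by fun_prop
  have hc0 : Continuous fun x : ℝ => Real.exp (-x ^ 2 / 2) := by fun_prop
  have h := intervalIntegral.integral_eq_sub_of_hasDerivAt hd
    ((hc.sub hc0).intervalIntegrable _ _)
  rw [intervalIntegral.integral_sub (hc.intervalIntegrable _ _) (hc0.intervalIntegrable _ _)] at h
  have h2 : (-A) ^ 2 = A ^ 2 := by ring
  rw [h2] at h
  linarith

theorem sqrt_two_pi_gt : 2.5 ≤ Real.sqrt (2 * π) := by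
  apply Real.le_sqrt_of_sq_le
  nlinarith [Real.pi_gt_d2]

end Vale.Agent.P230.R2
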